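import Vale.Agent.Lib.P015.AnyLine

/-!
# P015 (Gaussian moat problem): no bounded-step prime walk to infinity inside a strip of
bounded width about any line in the plane

Let `A x + B y = C` be any line in the plane, with arbitrary real coefficients
(`(A, B) ≠ (0, 0)`): the slope may be irrational and the line need not pass through any
Gaussian integer.  For all real `W` and `D` there is no infinite sequence of pairwise distinct
Gaussian primes with successive Euclidean distances at most `D` all of whose terms `x + y i`
satisfy `|A x + B y - C| ≤ W`, that is, lie within distance `W / sqrt (A^2 + B^2)` of the line.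
-/

namespace Vale.Agent.Results.P015.AnyLine

open Vale.Agent.Lib.P015

theorem result :
    ∀ (A B C W D : ℝ), (A ≠ 0 ∨ B ≠ 0) → ¬ ∃ z : ℕ → GaussianInt,
      Function.Injective z ∧
      (∀ n, Irreducible (z n)) ∧
      (∀ n, ‖GaussianInt.toComplex (z (n + 1)) - GaussianInt.toComplex (z n)‖ ≤ D) ∧
      (∀ n, |A * ((z n).re : ℝ) + B * ((z n).im : ℝ) - C| ≤ W) := by
  rintro A B C W D hAB ⟨z, hinj, hirr, hstep, hstrip⟩
  exact no_walk_in_strip A B C W D hAB z hinj hirr hstep hstrip

end Vale.Agent.Results.P015.AnyLine
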