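import Vale.Agent.Lib.P015.LineWalk

/-!
# P015 (Gaussian moat problem): no bounded-step prime walk to infinity inside a
logarithmic band about any line through two Gaussian integers

Let `L` be the line through the Gaussian integers `z0` and `z0 + v` (`v ≠ 0`).  For a Gaussian
integer `z` write `(z - z0) * conj v = A + C i`; then `|C| / |v|` is the distance from `z` to `L`
and `|A| / |v|` is the distance from `z0` to the orthogonal projection of `z` on `L`.
For every real `D` there is no infinite sequence of pairwise distinct Gaussian primes with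
successive Euclidean distances at most `D` all of whose terms satisfy
`80 * D * (|Re v| + |Im v|) * |C| * log (|C| + 2) ≤ log (|A| + 2)`.
-/

namespace Vale.Agent.Results.P015.LineBand

open Vale.Agent.Lib.P015

theorem result :
    ∀ (z0 v : GaussianInt), v ≠ 0 → ∀ D : ℝ, ¬ ∃ z : ℕ → GaussianInt,
      Function.Injective z ∧
      (∀ n, Irreducible (z n)) ∧
      (∀ n, ‖GaussianInt.toComplex (z (n + 1)) - GaussianInt.toComplex (z n)‖ ≤ D) ∧
      (∀ n, 80 * D * ((|v.re| + |v.im| : ℤ) : ℝ)
              * ((|((z n - z0) * star v).im| : ℤ) : ℝ)
              * Real.log (((|((z n - z0) * star v).im| : ℤ) : ℝ) + 2)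
            ≤ Real.log (((|((z n - z0) * star v).re| : ℤ) : ℝ) + 2)) := by
  rintro z0 v hv D ⟨z, hinj, hirr, hstep, hband⟩
  have hD : 1 ≤ D := by
    have hne : z (0 + 1) ≠ z 0 := fun h => by
      have := hinj h
      omega
    exact le_trans (one_le_dist_of_ne hne) (hstep 0)
  exact no_walk_in_line_band z0 v hv D hD z hinj hirr hstep hband

end Vale.Agent.Results.P015.LineBand
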