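import Vale.Agent.Lib.P015.Walk

/-!
# P015 (Gaussian moat problem): no bounded-step prime walk to infinity inside a
logarithmic band about the coordinate axes

For every real `D` there is no infinite sequence of pairwise distinct Gaussian primes with
successive Euclidean distances at most `D` all of whose terms `x + y i` satisfy
`30 * D * m * log (m + 2) ≤ log (M + 2)`, where `m = min |x| |y|` and `M = max |x| |y|`.
-/

namespace Vale.Agent.Results.P015.LogBand

open Vale.Agent.Lib.P015

theorem result :
    ∀ D : ℝ, ¬ ∃ z : ℕ → GaussianInt,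
      Function.Injective z ∧
      (∀ n, Irreducible (z n)) ∧
      (∀ n, ‖GaussianInt.toComplex (z (n + 1)) - GaussianInt.toComplex (z n)‖ ≤ D) ∧
      (∀ n, 30 * D * ((min |(z n).re| |(z n).im| : ℤ) : ℝ)
              * Real.log (((min |(z n).re| |(z n).im| : ℤ) : ℝ) + 2)
            ≤ Real.log (((max |(z n).re| |(z n).im| : ℤ) : ℝ) + 2)) := by
  rintro D ⟨z, hinj, hirr, hstep, hband⟩
  have hD : 1 ≤ D := by
    have hne : z (0 + 1) ≠ z 0 := fun h => by
      have := hinj h
      omega
    exact le_trans (one_le_dist_of_ne hne) (hstep 0)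
  exact no_walk_in_band D hD z hinj (fun n => (hirr n).prime) hstep hband

end Vale.Agent.Results.P015.LogBand
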