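import Vale.Agent.Lib.P015.Explicit

/-!
# P015 (Gaussian moat problem): no bounded-step prime walk to infinity inside a strip of
logarithmic height about the real axis

For every real `D` there is no infinite sequence of pairwise distinct Gaussian primes with
successive Euclidean distances at most `D` all of whose terms `x + y i` satisfy
`10 ^ 33 * D * |y| ≤ log (|x| + 2)`.

The proof (in `Vale.Agent.Lib.P015`) constructs rectangles `[c, c + k] × [-w, w]` free of
Gaussian primes with `log c ≤ K k w`: a Mertens estimate for the primes `p ≡ 1 (mod 4)`
(from the nonvanishing of the alternating series `1 - 1/3 + 1/5 - ...`), a greedy choice of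
residues modulo the split primes up to `y` leaving `O(k w / log y)` points, one further split
prime in `(y, B y]` for each remaining point, and the Chinese remainder theorem.
-/

namespace Vale.Agent.Results.P015.LogStrip

open Vale.Agent.Lib.P015

theorem result :
    ∀ D : ℝ, ¬ ∃ z : ℕ → GaussianInt,
      Function.Injective z ∧
      (∀ n, Irreducible (z n)) ∧
      (∀ n, ‖GaussianInt.toComplex (z (n + 1)) - GaussianInt.toComplex (z n)‖ ≤ D) ∧
      (∀ n, 10 ^ 33 * D * |((z n).im : ℝ)| ≤ Real.log (|((z n).re : ℝ)| + 2)) := by
  rintro D ⟨z, hinj, hirr, hstep, hband⟩
  exact no_walk_in_strip_explicit D z hinj hirr hstep hband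

end Vale.Agent.Results.P015.LogStrip
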